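import Mathlib.Analysis.VonNeumannAlgebra.Basic
import Mathlib.Analysis.InnerProductSpace.ProdL2

/-!
# P352 BW: operators that commute weakly with a von Neumann algebra and with its commutant
-/

set_option autoImplicit false
set_option linter.unusedSectionVars false

open scoped InnerProductSpace

namespace Vale.Agent.P352.BW.H268

noncomputable section

variable {H : Type*} [NormedAddCommGroup H] [InnerProductSpace ℂ H] [CompleteSpace H]

/-- the first inclusion of `H` in `H ⊕ H` -/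
def inA : H →L[ℂ] WithLp 2 (H × H) :=
  ((WithLp.prodContinuousLinearEquiv 2 ℂ H H).symm : H × H →L[ℂ] WithLp 2 (H × H)).comp
    (ContinuousLinearMap.inl ℂ H H)

/-- the second inclusion of `H` in `H ⊕ H` -/
def inB : H →L[ℂ] WithLp 2 (H × H) :=
  ((WithLp.prodContinuousLinearEquiv 2 ℂ H H).symm : H × H →L[ℂ] WithLp 2 (H × H)).comp
    (ContinuousLinearMap.inr ℂ H H)

/-- the first projection -/
def prA : WithLp 2 (H × H) →L[ℂ] H := WithLp.fstL 2 ℂ H H

/-- the second projection -/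
def prB : WithLp 2 (H × H) →L[ℂ] H := WithLp.sndL 2 ℂ H H

theorem prA_inA (x : H) : prA (inA x) = x := rfl
theorem prB_inA (x : H) : prB (inA x) = 0 := rfl
theorem prA_inB (x : H) : prA (inB x) = 0 := rfl
theorem prB_inB (x : H) : prB (inB x) = x := rfl

theorem in_pr (z : WithLp 2 (H × H)) : inA (prA z) + inB (prB z) = z := by
  refine (WithLp.prodContinuousLinearEquiv 2 ℂ H H).injective ?_
  ext
  · show prA (inA (prA z) + inB (prB z)) = prA z
    rw [map_add, prA_inA, prA_inB, add_zero]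
  · show prB (inA (prA z) + inB (prB z)) = prB z
    rw [map_add, prB_inA, prB_inB, zero_add]

theorem ext_pr {z w : WithLp 2 (H × H)} (h1 : prA z = prA w) (h2 : prB z = prB w) : z = w := by
  rw [← in_pr z, ← in_pr w, h1, h2]

theorem inner_pr (z w : WithLp 2 (H × H)) :
    ⟪z, w⟫_ℂ = ⟪prA z, prA w⟫_ℂ + ⟪prB z, prB w⟫_ℂ := WithLp.prod_inner_apply z w

/-- the diagonal operator -/
def dg (Y : H →L[ℂ] H) : WithLp 2 (H × H) →L[ℂ] WithLp 2 (H × H) :=
  inA.comp (Y.comp prA) + inB.comp (Y.comp prB)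

theorem prA_dg (Y : H →L[ℂ] H) (z : WithLp 2 (H × H)) : prA (dg Y z) = Y (prA z) := by
  show prA (inA (Y (prA z)) + inB (Y (prB z))) = _
  rw [map_add, prA_inA, prA_inB, add_zero]

theorem prB_dg (Y : H →L[ℂ] H) (z : WithLp 2 (H × H)) : prB (dg Y z) = Y (prB z) := by
  show prB (inA (Y (prA z)) + inB (Y (prB z))) = _
  rw [map_add, prB_inA, prB_inB, zero_add]

theorem dg_inA (Y : H →L[ℂ] H) (x : H) : dg Y (inA x) = inA (Y x) := by
  refine ext_pr ?_ ?_
  · rw [prA_dg, prA_inA, prA_inA]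
  · rw [prB_dg, prB_inA, prB_inA, map_zero]

theorem dg_inB (Y : H →L[ℂ] H) (x : H) : dg Y (inB x) = inB (Y x) := by
  refine ext_pr ?_ ?_
  · rw [prA_dg, prA_inB, prA_inB, map_zero]
  · rw [prB_dg, prB_inB, prB_inB]

theorem dg_adj (Y : H →L[ℂ] H) (z w : WithLp 2 (H × H)) :
    ⟪z, dg Y w⟫_ℂ = ⟪dg (star Y) z, w⟫_ℂ := by
  rw [inner_pr, inner_pr, prA_dg, prB_dg, prA_dg, prB_dg, ContinuousLinearMap.star_eq_adjoint,
    ContinuousLinearMap.adjoint_inner_left, ContinuousLinearMap.adjoint_inner_left]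

/-- the projection on a closed subspace that is invariant under a star closed set commutes with
this set -/
theorem proj_comm (G : Submodule ℂ (WithLp 2 (H × H))) [G.HasOrthogonalProjection]
    (Y : H →L[ℂ] H) (h1 : ∀ z ∈ G, dg Y z ∈ G) (h2 : ∀ z ∈ G, dg (star Y) z ∈ G)
    (z : WithLp 2 (H × H)) : G.starProjection (dg Y z) = dg Y (G.starProjection z) := by
  refine (Submodule.eq_starProjection_of_mem_of_inner_eq_zero
    (h1 _ (Submodule.starProjection_apply_mem G z)) ?_)
  intro w hw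
  rw [← map_sub, ← inner_conj_symm, dg_adj, inner_conj_symm]
  exact Submodule.starProjection_inner_eq_zero z _ (h2 w hw)

variable {D : Type*} [NormedAddCommGroup D] [InnerProductSpace ℂ D]

/-- **Operators that commute weakly with a von Neumann algebra `N` commute, on the common
invariant dense domain, with the operators that commute weakly with the commutant of `N`.** -/
theorem comm_of_weak (N : VonNeumannAlgebra H) (ι : D →ₗᵢ[ℂ] H) (hι : DenseRange ι)
    (X Xs Z Zs : D → D)
    (hX : ∀ Y ∈ N.commutant, ∀ v w, ⟪ι (Xs w), Y (ι v)⟫_ℂ = ⟪ι w, Y (ι (X v))⟫_ℂ)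
    (hZ : ∀ Y ∈ N, ∀ v w, ⟪ι (Zs w), Y (ι v)⟫_ℂ = ⟪ι w, Y (ι (Z v))⟫_ℂ) (v : D) :
    X (Z v) = Z (X v) := by
  have hdense : ∀ a b : H, (∀ w : D, ⟪ι w, a⟫_ℂ = ⟪ι w, b⟫_ℂ) → a = b := by
    intro a b h
    refine ext_inner_left ℂ fun w => ?_
    have hcl : IsClosed {w : H | ⟪w, a⟫_ℂ = ⟪w, b⟫_ℂ} :=
      isClosed_eq (by fun_prop) (by fun_prop)
    have hsub : Set.range ι ⊆ {w : H | ⟪w, a⟫_ℂ = ⟪w, b⟫_ℂ} := by
      rintro _ ⟨w, rfl⟩
      exact h w
    exact hcl.closure_subset_iff.2 hsub (hι w)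
  -- the graph
  let S : Set (WithLp 2 (H × H)) :=
    {z | ∃ Y ∈ N.commutant, ∃ u : D, z = inA (Y (ι u)) + inB (Y (ι (X u)))}
  let G : Submodule ℂ (WithLp 2 (H × H)) := (Submodule.span ℂ S).topologicalClosure
  have : CompleteSpace G := (Submodule.isClosed_topologicalClosure _).completeSpace_coe
  have hS : ∀ u : D, inA (ι u) + inB (ι (X u)) ∈ G := by
    intro u
    refine Submodule.le_topologicalClosure _ (Submodule.subset_span ⟨1, one_mem _, u, ?_⟩)
    rfl
  have hG : ∀ Y ∈ N.commutant, ∀ z ∈ G, dg Y z ∈ G := by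
    intro Y hY z hz
    have hcl : IsClosed {z : WithLp 2 (H × H) | dg Y z ∈ G} :=
      (Submodule.isClosed_topologicalClosure _).preimage (dg Y).continuous
    refine closure_minimal (s := (Submodule.span ℂ S : Set (WithLp 2 (H × H)))) ?_ hcl hz
    intro z hz
    refine Submodule.le_topologicalClosure _ ?_
    induction hz using Submodule.span_induction with
    | mem z hz =>
      obtain ⟨Y', hY', u, rfl⟩ := hz
      refine Submodule.subset_span ⟨Y * Y', mul_mem hY hY', u, ?_⟩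
      rw [map_add, dg_inA, dg_inB]
      rfl
    | zero => rw [map_zero]; exact zero_mem _
    | add a b _ _ ha hb => rw [map_add]; exact add_mem ha hb
    | smul c a _ ha => rw [map_smul]; exact Submodule.smul_mem _ c ha
  -- elements `(0, b)` of the closure
  have hgr : ∀ z ∈ G, ∀ w : D, ⟪ι w, prB z⟫_ℂ = ⟪ι (Xs w), prA z⟫_ℂ := by
    intro z hz w
    have hcl : IsClosed {z : WithLp 2 (H × H) | ⟪ι w, prB z⟫_ℂ = ⟪ι (Xs w), prA z⟫_ℂ} :=
      isClosed_eq (by fun_prop) (by fun_prop)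
    refine closure_minimal (s := (Submodule.span ℂ S : Set (WithLp 2 (H × H)))) ?_ hcl hz
    intro z hz
    induction hz using Submodule.span_induction with
    | mem z hz =>
      obtain ⟨Y', hY', u, rfl⟩ := hz
      show ⟪ι w, prB (_ + _)⟫_ℂ = ⟪ι (Xs w), prA (_ + _)⟫_ℂ
      rw [map_add, map_add, prB_inA, prB_inB, prA_inA, prA_inB, zero_add, add_zero]
      exact (hX Y' hY' u w).symm
    | zero => show ⟪ι w, prB 0⟫_ℂ = ⟪ι (Xs w), prA 0⟫_ℂ; simp
    | add a b _ _ ha hb =>
      show ⟪ι w, prB (_ + _)⟫_ℂ = ⟪ι (Xs w), prA (_ + _)⟫_ℂ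
      rw [map_add, map_add, inner_add_right, inner_add_right, ha, hb]
    | smul c a _ ha =>
      show ⟪ι w, prB (_ • _)⟫_ℂ = ⟪ι (Xs w), prA (_ • _)⟫_ℂ
      rw [map_smul, map_smul, inner_smul_right, inner_smul_right, ha]
  -- the entries of the projection
  have hmem : ∀ (p : WithLp 2 (H × H) →L[ℂ] H) (i : H →L[ℂ] WithLp 2 (H × H)),
      (∀ Y z, p (dg Y z) = Y (p z)) → (∀ Y x, dg Y (i x) = i (Y x)) →
      p.comp (G.starProjection.comp i) ∈ N := by
    intro p i hp hi
    rw [← N.commutant_commutant, VonNeumannAlgebra.mem_commutant_iff]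
    intro Y hY
    ext x
    show Y (p (G.starProjection (i x))) = p (G.starProjection (i (Y x)))
    rw [← hi, proj_comm G Y (hG Y hY) (hG _ (star_mem hY)), hp]
  have hAA := hmem prA inA prA_dg dg_inA
  have hAB := hmem prA inB prA_dg dg_inB
  have hBA := hmem prB inA prB_dg dg_inA
  have hBB := hmem prB inB prB_dg dg_inB
  have hEv : G.starProjection (inA (ι v) + inB (ι (X v))) = inA (ι v) + inB (ι (X v)) :=
    Submodule.starProjection_eq_self_iff.2 (hS v)
  have hZ1 : ∀ a w, ⟪ι w, ι (Z a)⟫_ℂ = ⟪ι (Zs w), ι a⟫_ℂ := fun a w =>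
    (hZ 1 (one_mem _) a w).symm
  have hEZ : G.starProjection (inA (ι (Z v)) + inB (ι (Z (X v)))) =
      inA (ι (Z v)) + inB (ι (Z (X v))) := by
    refine ext_pr ?_ ?_
    · rw [map_add prA (inA _), prA_inA, prA_inB, add_zero]
      refine hdense _ _ fun w => ?_
      rw [hZ1, map_add, map_add, inner_add_right]
      have e1 := hZ _ hAA v w
      have e2 := hZ _ hAB (X v) w
      have e3 := congrArg prA hEv
      rw [map_add, map_add prA (inA _), map_add prA (G.starProjection _), prA_inA, prA_inB,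
        add_zero] at e3
      have e4 : ⟪ι (Zs w), ι v⟫_ℂ = ⟪ι (Zs w), prA (G.starProjection (inA (ι v)))⟫_ℂ +
          ⟪ι (Zs w), prA (G.starProjection (inB (ι (X v))))⟫_ℂ := by
        rw [← inner_add_right, e3]
      rw [e4]
      exact (congrArg₂ (· + ·) e1 e2).symm
    · rw [map_add prB (inA _), prB_inA, prB_inB, zero_add]
      refine hdense _ _ fun w => ?_
      rw [hZ1, map_add, map_add, inner_add_right]
      have e1 := hZ _ hBA v w
      have e2 := hZ _ hBB (X v) w
      have e3 := congrArg prB hEv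
      rw [map_add, map_add prB (inA _), map_add prB (G.starProjection _), prB_inA, prB_inB,
        zero_add] at e3
      have e4 : ⟪ι (Zs w), ι (X v)⟫_ℂ = ⟪ι (Zs w), prB (G.starProjection (inA (ι v)))⟫_ℂ +
          ⟪ι (Zs w), prB (G.starProjection (inB (ι (X v))))⟫_ℂ := by
        rw [← inner_add_right, e3]
      rw [e4]
      exact (congrArg₂ (· + ·) e1 e2).symm
  have hZG : inA (ι (Z v)) + inB (ι (Z (X v))) ∈ G :=
    Submodule.starProjection_eq_self_iff.1 hEZ
  refine ι.injective (hdense _ _ fun w => ?_)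
  have e1 := hgr _ (hS (Z v)) w
  have e2 := hgr _ hZG w
  rw [map_add, map_add, prB_inA, prB_inB, prA_inA, prA_inB, zero_add, add_zero] at e1 e2
  rw [e1, e2]

end

end Vale.Agent.P352.BW.H268
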