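import Vale.Agent.P352.BW.S0.Grp0

open MeasureTheory Filter Topology

namespace Vale.Agent.P352.BW

open GF H246 H496 H755 H15
open UniformSpace (Completion)

noncomputable section

variable {D : Type*} [NormedAddCommGroup D] [InnerProductSpace ℂ D]

/-- **Null deformations**, with the relations of special conformal transformations and of the
translations `y` along the null plane `a·z = 0`. -/
structure Grp1 (Q : Theory D) (𝒜 : Set V → VonNeumannAlgebra (Completion D))
    (S : V → ℝ → Completion D →L[ℂ] Completion D) : Prop extends Grp0 Q 𝒜 S where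
  tra : ∀ a y c L z, IsNull a → GF.mdot a y = 0 → IsLor L →
    (∀ x, sim 1 L 0 x = x - (2 * c * GF.mdot y x) • a + (2 * c * GF.mdot a x) • y -
      (2 * c ^ 2 * GF.mdot y y * GF.mdot a x) • a) →
    S a c (Ue Q 1 GF.one y z) = Ue Q 1 L (y - (c * GF.mdot y y) • a) (S a c z)

end

end Vale.Agent.P352.BW
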