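import Vale.Agent.P352.BW.Defs

/-!
# P352 BW: block I2, commutators with generators of one-sided deformations
-/

set_option autoImplicit false

open scoped InnerProductSpace
open UniformSpace (Completion)

namespace Vale.Agent.P352.BW.H268

variable {D : Type*} [NormedAddCommGroup D] [InnerProductSpace ℂ D]

theorem i2_core (Mc : Set (Completion D →L[ℂ] Completion D))
    (S : ℝ → Completion D →L[ℂ] Completion D) (G X X' : D → D) (ε : ℝ) (hε : ε ≠ 0)
    (hS : ∀ c, ∀ z w, ⟪S c z, S c w⟫_ℂ = ⟪z, w⟫_ℂ)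
    (hS0 : ∀ z, S 0 z = z)
    (hY : ∀ c, 0 ≤ c → ∀ Y ∈ Mc, ∃ Y' ∈ Mc, ∀ z, S (ε * c) (Y' z) = Y (S (ε * c) z))
    (hG : ∀ v : D, HasDerivAt (fun c : ℝ => S c (v : Completion D))
      ((Complex.I • G v : D) : Completion D) 0)
    (hX : ∀ Y ∈ Mc, ∀ v w : D, inner ℂ ((X' w : D) : Completion D) (Y (v : Completion D)) =
      inner ℂ (w : Completion D) (Y ((X v : D) : Completion D))) :
    ∀ Y ∈ Mc, ∀ v w : D, inner ℂ ((X' (G w) - G (X' w) : D) : Completion D)
      (Y (v : Completion D)) =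
        inner ℂ (w : Completion D) (Y ((G (X v) - X (G v) : D) : Completion D)) := by
  intro Y hYM v w
  have hder : ∀ u : D, HasDerivAt (fun c : ℝ => S (ε * c) (u : Completion D))
      (ε • ((Complex.I • G u : D) : Completion D)) 0 := by
    intro u
    have h1 : HasDerivAt (fun c : ℝ => ε * c) ε 0 := by
      simpa using (hasDerivAt_id (0 : ℝ)).const_mul ε
    have h2 : HasDerivAt (fun c : ℝ => S c (u : Completion D))
      ((Complex.I • G u : D) : Completion D) (ε * 0) := by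
      rw [mul_zero]
      exact hG u
    exact h2.scomp (0 : ℝ) h1
  have hderY : ∀ u : D, HasDerivAt (fun c : ℝ => Y (S (ε * c) (u : Completion D)))
      (Y (ε • ((Complex.I • G u : D) : Completion D))) 0 := by
    intro u
    exact (Y.restrictScalars ℝ).hasFDerivAt.comp_hasDerivAt (0 : ℝ) (hder u)
  have h1 := (hder (X' w)).inner ℂ (hderY v)
  have h2 := (hder w).inner ℂ (hderY (X v))
  have h3 := (h1.sub h2).hasDerivWithinAt (s := Set.Ici 0)
  have h4 : HasDerivWithinAt (fun c : ℝ => ⟪S (ε * c) ((X' w : D) : Completion D),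
      Y (S (ε * c) (v : Completion D))⟫_ℂ - ⟪S (ε * c) (w : Completion D),
        Y (S (ε * c) ((X v : D) : Completion D))⟫_ℂ) 0 (Set.Ici 0) 0 := by
    refine (hasDerivWithinAt_const (0 : ℝ) (Set.Ici 0) (0 : ℂ)).congr ?_ ?_
    · intro c hc
      obtain ⟨Y', hY', h⟩ := hY c hc Y hYM
      rw [← h, ← h, hS, hS, hX Y' hY' v w, sub_self]
    · obtain ⟨Y', hY', h⟩ := hY 0 le_rfl Y hYM
      rw [← h, ← h, hS, hS, hX Y' hY' v w, sub_self]
  have h5 := (uniqueDiffOn_Ici (0 : ℝ) 0 Set.self_mem_Ici).eq_deriv _ h3 h4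
  simp only [mul_zero, hS0] at h5
  have e1 := hX Y hYM (G v) w
  have e2 := hX Y hYM v (G w)
  have hε' : (ε : ℂ) ≠ 0 := by exact_mod_cast hε
  have hr : ∀ (r : ℝ) (z : Completion D), r • z = (r : ℂ) • z := fun r z => by
    rw [Complex.coe_smul]
  simp only [hr, Completion.coe_smul, map_smul, inner_smul_left, inner_smul_right,
    Complex.conj_ofReal, Complex.conj_I] at h5
  rw [Completion.coe_sub, Completion.coe_sub, inner_sub_left, map_sub, inner_sub_right, ← e1, e2]
  have h6 : (ε : ℂ) * Complex.I * (⟪((X' w : D) : Completion D), Y (G v : D)⟫_ℂ -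
      ⟪((G (X' w) : D) : Completion D), Y (v : D)⟫_ℂ - (⟪(w : Completion D), Y (G (X v) : D)⟫_ℂ -
        ⟪((G w : D) : Completion D), Y (X v : D)⟫_ℂ)) = 0 := by
    rw [← h5]
    ring
  have h7 := (mul_eq_zero.1 h6).resolve_left (mul_ne_zero hε' Complex.I_ne_zero)
  linear_combination h7


/-- block I2 with the hypothesis `S 0 = 1`: commutators with generators of one-sided deformations
are affiliated -/
theorem i2s (M : VonNeumannAlgebra (Completion D))
    (S : ℝ → Completion D →L[ℂ] Completion D) (G X : D → D) (ε : ℝ) (hε : ε ≠ 0)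
    (hS : ∀ c, ∀ z w, ⟪S c z, S c w⟫_ℂ = ⟪z, w⟫_ℂ)
    (hS0 : ∀ z, S 0 z = z)
    (hY : ∀ c, 0 ≤ c → ∀ Y ∈ M.commutant, ∃ Y' ∈ M.commutant,
      ∀ z, S (ε * c) (Y' z) = Y (S (ε * c) z))
    (hG : ∀ v : D, HasDerivAt (fun c : ℝ => S c (v : Completion D))
      ((Complex.I • G v : D) : Completion D) 0)
    (hGs : ∀ v w, inner ℂ (G v) w = inner ℂ v (G w)) (hX : Aff M X) :
    Aff M (fun v => G (X v) - X (G v)) := by
  obtain ⟨X', hadj, hX⟩ := hX
  refine ⟨fun w => X' (G w) - G (X' w), fun v w => ?_, ?_⟩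
  · rw [inner_sub_left, inner_sub_right, hGs, hadj, hadj, hGs]
  · exact i2_core _ S G X X' ε hε hS hS0 hY hG hX

end Vale.Agent.P352.BW.H268
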