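import Vale.Agent.P352.BW.Fe4
import Vale.Agent.P352.BW.S0.Fin
import Vale.Agent.P352.BW.H268.Grp1

/-!
# P352 BW: the null deformations and the translations along the null plane
-/

set_option linter.all false

noncomputable section

open MeasureTheory Filter Topology

namespace Vale.Agent.P352.BW.H268

open GF H246 H496 H755 H15
open UniformSpace (Completion)
open Vale.Agent.P132 (ModData)

variable {D : Type*} [NormedAddCommGroup D] [InnerProductSpace ℂ D]
variable {Q : Theory D} {A : (V → V) → D → D}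
  {𝒜 : Set V → VonNeumannAlgebra (Completion D)}
  {S S' : V → ℝ → Completion D →L[ℂ] Completion D}

/-- the net, without regularity -/
theorem s0 (hG : TfGen Q) (N : LNm Q A 𝒜) : S0.LNet Q A 𝒜 :=
  { N.toRep with
    fld := N.fld
    mono := N.mono
    cov := N.cov
    loc := fun a b ha hb hab X hX => N.loc a b X ha hb hab hX
    bw := fun a b t L E z ha hb hab hL h => N.bw hG a b t L E z ha hb hab hL h }

theorem gr0 (h : Grp0 Q 𝒜 S) : Gr0 Q 𝒜 S :=
  ⟨h.zero, h.add, h.inn, h.cont, h.vac, h.cov, h.geo⟩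

/-- uniqueness for all parameters -/
theorem uniq (hG : TfGen Q) (N : LNm Q A 𝒜) (h : Gr0 Q 𝒜 S) (h' : Gr0 Q 𝒜 S') {a : V}
    (ha : IsNull a) (c : ℝ) : S a c = S' a c := by
  have k : ∀ c < (1 : ℝ), S a c = S' a c := fun c hc =>
    ContinuousLinearMap.ext fun z => h.uniq hG N h' ha hc z
  rcases lt_or_ge c 1 with hc | hc
  · exact k c hc
  · have e := k (-c) (by linarith)
    have m1 : S' a (-c) * S' a c = 1 := by rw [← h'.add a _ _ ha, neg_add_cancel, h'.zero a ha]
    have m2 : S a c * S a (-c) = 1 := by rw [← h.add a _ _ ha, add_neg_cancel, h.zero a ha]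
    calc S a c = S a c * (S' a (-c) * S' a c) := by rw [m1, mul_one]
      _ = (S a c * S a (-c)) * S' a c := by rw [← e, mul_assoc]
      _ = S' a c := by rw [m2, one_mul]

/-- two Lorentz matrices that agree as maps -/
theorem mat_eq {L M : Ix → V} (h : ∀ x, sim 1 L 0 x = sim 1 M 0 x) : L = M := by
  funext m
  rw [H26.sim_row L m, H26.sim_row M m, h]

/-- the relations of the null deformations and the translations along the null plane -/
theorem tra (hG : TfGen Q) (N : LNm Q A 𝒜) (h : Gr0 Q 𝒜 S) {a w : V} (ha : IsNull a)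
    (hw : GF.mdot a w = 0) (c : ℝ) (z : Completion D) :
    S a c (Ue Q 1 GF.one w z) =
      Ue Q 1 (H746.nrt a (c • w)) (w - (c * GF.mdot w w) • a) (S a c z) := by
  obtain ⟨S1, hS1, S2, hS0, hS01⟩ := S0.grp0_of (s0 hG N)
  have hV : S0.VNet Q A 𝒜 := (s0 hG N).vnet
  have hU : UStmt Q A := ublock N.toRep
  have hN : ∀ a b, IsNull a → IsNull b → GF.mdot a b = 1 → Nd Q 𝒜 a b (S1 a b) ∧
      Nonempty (ModData (𝒜 (Wdg a b 0)) (om Q)) ∧
      ∀ c : ℝ, 0 < c → Nonempty (ModData (𝒜 (HM.Rg a b c)) (om Q)) := fun a b ha hb hab =>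
    ⟨(hS1 a b ha hb hab).1, (hS1 a b ha hb hab).2.1, (hS1 a b ha hb hab).2.2.1⟩
  have hG3 : G3Stmt Q S1 := S0.g3block S1 hV hN
  obtain ⟨b, hb, hab⟩ := H755.exists_dual ha
  have e : ∀ c, S a c = S1 a b c := fun c => by
    rw [uniq hG N h (gr0 hS0) ha c, hS01 a b c ha hb hab]
  simp only [e]
  have hcw : GF.mdot a (c • w) = 0 := by
    have h1 : GF.mdot a (c • w) = c * GF.mdot a w := by
      simp only [GF.mdot, Pi.smul_apply, smul_eq_mul, Finset.mul_sum]
      exact Finset.sum_congr rfl fun m _ => by ring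
    rw [h1, hw, mul_zero]
  have hL : IsLor (H746.nrt a (c • w)) := H746.isLor_nrt ha hcw
  have sp : ∀ (r : ℝ) (q : Completion D), Ue Q 1 GF.one (r • a) (Ue Q 1 (H746.nrt a (c • w)) 0 q) =
      Ue Q 1 (H746.nrt a (c • w)) (r • a) q := fun r q =>
    H26.Ue_cmp hU isLor_one hL hL (fun x => by
      rw [HM.sim_tr, H26.sim_at0 (H746.nrt a (c • w)) (r • a) x]) q
  rw [hG3.ptr a b w c z ha hb hab hw, ← sp, ← hG3.trans a b _ c _ ha hb hab,
    ← hG3.nrot a b (c • w) c z ha hb hab hcw, sp]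
  exact H26.Ue_cmp hU isLor_one hL hL (fun x => by
    rw [HM.sim_tr, H26.sim_at0 _ (-(c * GF.mdot w w) • a) x,
      H26.sim_at0 _ (w - (c * GF.mdot w w) • a) x, neg_smul]
    abel) _

end Vale.Agent.P352.BW.H268

namespace Vale.Agent.P352.BW

open GF H246 H496 H755 H15
open UniformSpace (Completion)

variable {D : Type*} [NormedAddCommGroup D] [InnerProductSpace ℂ D]
variable {Q : Theory D} {A : (V → V) → D → D}
  {𝒜 : Set V → VonNeumannAlgebra (Completion D)}
  {S : V → ℝ → Completion D →L[ℂ] Completion D}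

/-- **The null deformations and the translations along the null plane** -/
theorem Gr0.tra (h : Gr0 Q 𝒜 S) (hG : TfGen Q) (N : LNm Q A 𝒜) (a y : V) (c : ℝ) (L : Ix → V)
    (z : Completion D) (ha : IsNull a) (hy : GF.mdot a y = 0) (hL : IsLor L)
    (hx : ∀ x, sim 1 L 0 x = x - (2 * c * GF.mdot y x) • a + (2 * c * GF.mdot a x) • y -
      (2 * c ^ 2 * GF.mdot y y * GF.mdot a x) • a) :
    S a c (Ue Q 1 GF.one y z) = Ue Q 1 L (y - (c * GF.mdot y y) • a) (S a c z) := by
  have e : L = H746.nrt a (c • y) := by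
    refine H268.mat_eq fun x => ?_
    rw [hx, H746.sim_nrt]
    have h1 : GF.mdot (c • y) x = c * GF.mdot y x := by
      simp only [GF.mdot, Pi.smul_apply, smul_eq_mul, Finset.mul_sum]
      exact Finset.sum_congr rfl fun m _ => by ring
    have h2 : GF.mdot (c • y) (c • y) = c ^ 2 * GF.mdot y y := by
      simp only [GF.mdot, Pi.smul_apply, smul_eq_mul, Finset.mul_sum]
      exact Finset.sum_congr rfl fun m _ => by ring
    rw [h1, h2, smul_smul]
    funext n
    simp only [Pi.add_apply, Pi.sub_apply, Pi.smul_apply, smul_eq_mul]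
    ring
  rw [e]
  exact H268.tra hG N h ha hy c z

theorem Grp0.grp1 (h : Grp0 Q 𝒜 S) (hG : TfGen Q) (N : LNm Q A 𝒜) : Grp1 Q 𝒜 S :=
  { h with tra := fun a y c L z ha hy hL hx => (H268.gr0 h).tra hG N a y c L z ha hy hL hx }

end Vale.Agent.P352.BW

end
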